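import Vale.Agent.P167.N.Kit
import Vale.Agent.P167.N.H398.Q.Mac
import Vale.Agent.P167.H601.S2.Num

/-! generated from Vale.Agent.P167.H601.S2.Num (q < 1 port) -/

set_option autoImplicit false

namespace Vale.Agent.P167.N.H601.S2

open Vale.Agent.P167.H601.S2 Vale.Agent.P167.H601

open Finset Vale.Agent.P167.FK Vale.Agent.P167.FKA

open Vale.Agent.P167.H166 (bxx mem_bxx)

open Vale.Agent.P167.H562.QM (MajA OneC Nr)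

open Vale.Agent.P167.H398.Q (macro_F)

open Vale.Agent.P167.H506.Q (nr_bq nm_of_bq)

variable {Q : ℝ} {D : Finset (ℤ × ℤ)} {η : Cfg}

/-- **Large segments around one point.** -/
theorem num_pt (hQ : Kit Q) (h : RSW Q) : ∃ e1 : ℝ, 0 < e1 ∧
    ∀ κ R s : ℝ, 0 < κ → 0 ≤ R → ∃ C ρ0 : ℝ, 0 < C ∧ 0 < ρ0 ∧ ∀ ρ : ℝ, ρ0 ≤ ρ →
      ∀ (c : ℤ × ℤ) (Z : ℤ), (Z : ℝ) ≤ R * ρ → ∃ N : Cfg → ℕ,
      (∀ ω ω' : Cfg, (∀ v, Vale.Agent.P167.H601.S2.Rg c (e1 * κ / (1 + |s|) * ρ) (κ * ρ + Z) v → ω v = ω' v) →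
        N ω = N ω') ∧
      (∀ ω, MajA (Bq c Z) (κ * ρ) ω (N ω)) ∧
      ∀ (D : Finset (ℤ × ℤ)) (η : Cfg), Good η →
        (∀ (y : ℤ × ℤ) (a : ℤ), 1 ≤ a → (a : ℝ) ≤ κ * ρ / 4 → (nm (y - c) : ℝ) ≤ κ * ρ + Z →
          OneC y a D η) →
        ∀ G : Cfg → ℝ, (∀ ω, 0 ≤ G ω) → Off D (Vale.Agent.P167.H601.S2.Rg c (e1 * κ / (1 + |s|) * ρ) (κ * ρ + Z)) G →
        Ex Q D η (fun ω => G ω * Real.exp (s * (N ω : ℝ))) ≤ C * Ex Q D η G := by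
  have hQ_pos := hQ.pos
  obtain ⟨e1, he1, H⟩ := Vale.Agent.P167.N.H398.Q.macro_F hQ h 1
  refine ⟨e1, he1, fun κ R s hκ hR => ?_⟩
  obtain ⟨C, ρ0, hC, hρ0, H⟩ := H κ R s hκ hR
  refine ⟨C, ρ0, hC, hρ0, fun ρ hρ c Z hZ => ?_⟩
  obtain ⟨N, h1, h2, h3⟩ := H ρ hρ c (Bq c Z) (fun v hv => by
    have : (nm (v - c) : ℝ) ≤ Z := by exact_mod_cast nm_of_bq hv
    linarith) (fun _ => c)
  have key : ∀ v, (Nr (Bq c Z) (κ * ρ) v ∧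
      ∀ i : Fin 1, e1 * κ / (1 + |s|) * ρ < (nm (v - (fun _ => c) i) : ℝ)) →
      Vale.Agent.P167.H601.S2.Rg c (e1 * κ / (1 + |s|) * ρ) (κ * ρ + Z) v := fun v hv => ⟨hv.2 0, nr_bq hv.1⟩
  refine ⟨N, fun ω ω' hh => ?_, h2, fun D η hη hone G hG0 hG => ?_⟩
  · exact h1 ω ω' fun v hv hv' => hh v (key v ⟨hv, hv'⟩)
  · refine h3 D η hη (fun y a ha ha' hy => hone y a ha ha' ?_) G hG0 fun ω ω' hh => ?_
    · have h5 : y ∈ bxx y a := by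
        rw [mem_bxx, sub_self]
        show max |(0 : ℤ)| |(0 : ℤ)| ≤ a
        simp
        omega
      exact (key y (hy y h5)).2
    · exact hG ω ω' fun v hv => hh v fun h' => hv ⟨h'.1, key v h'.2⟩

end Vale.Agent.P167.N.H601.S2
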