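import Vale.Agent.P167.N.Kit
import Vale.Agent.P167.N.H601.S2.Num
import Vale.Agent.P167.H601.S2.Cst

/-! generated from Vale.Agent.P167.H601.S2.Cst (q < 1 port) -/

set_option autoImplicit false

namespace Vale.Agent.P167.N.H601.S2

open Vale.Agent.P167.H601.S2 Vale.Agent.P167.H601

open Finset

open Vale.Agent.P167.E6 (IsPolygon Encloses)

open Vale.Agent.P167.BR

open Vale.Agent.P167.FK (Bq Ex Good RSW cf)

open Vale.Agent.P167.FKA (Loc Ex_mono Ex_congr Ex_const Ex_mul_left Ex_nonneg)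

open Vale.Agent.P167.H562.QM (MajA OneC)

open Vale.Agent.P167.H975 (TX TX_loc)

open Vale.Agent.P167.H506.Q (maj_small)

open Vale.Agent.P167.H601.LG

theorem exists_cn {Q : ℝ} (hQ : Kit Q) (hR : RSW Q) (s : ℝ) (E0 : ℕ) :
    ∃ (ε : ℝ) (E : ℕ) (C ρ0 : ℝ), 0 < ε ∧ E0 ≤ E ∧ 2 ≤ E ∧ 1 ≤ ε * E ∧ 0 < C ∧ 0 < ρ0 ∧
      Cn Q ε E s C ρ0 := by
  have hQ_pos := hQ.pos
  obtain ⟨e1, he1, H⟩ := num_pt hQ hR
  have hs2 : 0 < 1 + |s| := by positivity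
  obtain ⟨E, hE⟩ := exists_nat_ge (16 * (1 + |s|) / e1 + 2 + E0)
  have h16 : 0 ≤ 16 * (1 + |s|) / e1 := by positivity
  have hE00 : (0 : ℝ) ≤ E0 := Nat.cast_nonneg _
  have hE2 : (2 : ℝ) ≤ E := by linarith
  have hE0 : E0 ≤ E := by
    have : (E0 : ℝ) ≤ E := by linarith
    exact_mod_cast this
  have hE2' : 2 ≤ E := by exact_mod_cast hE2
  obtain ⟨C, ρ0, hC, hρ0, H⟩ := H (1 / 16) (2 * E) s (by norm_num) (by positivity)
  refine ⟨e1 * (1 / 16) / (1 + |s|), E, C, ρ0, by positivity, hE0, hE2', ?_, hC, hρ0, ?_⟩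
  · have h3 : 16 * (1 + |s|) / e1 ≤ E := by linarith
    rw [div_le_iff₀ he1] at h3
    rw [div_mul_eq_mul_div, le_div_iff₀ hs2]
    linarith
  · intro ρ hρ c Z hZ
    obtain ⟨N, n1, n2, n3⟩ := H ρ hρ c Z hZ
    refine ⟨N, n1, fun ω => ?_, fun D η hη hone G hG0 hG => ?_⟩
    · have := n2 ω
      rwa [one_div, inv_mul_eq_div] at this
    · refine n3 D η hη (fun y a ha ha' hy => hone y a ha ?_ hy) G hG0 hG
      linarith

end Vale.Agent.P167.N.H601.S2
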